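import Vale.Agent.P214.WSEQ.Loc
import Vale.Agent.P214.ALL.UC1
import Vale.Agent.P214.ALL.Frame
import Vale.Agent.P214.ABS.Main
import Vale.Agent.P214.INST.Asm

/-!
# P214, block UCA: the final glue

`UC` from the windows sequence (`WSEQ.WindowsStmt`) and block INST (the instance of the abstract
chain).  The local situation at a good point is `WSEQ.exists_loc`; the end is
`ABS.Chain.Good.false`.
-/

open Set Filter Topology MeasureTheory Metric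
open scoped RealInnerProductSpace ENNReal ContDiff

namespace Vale.Agent.P214.UCA

open Skel SCALE WIN WSEQ

variable {E : Type*} [NormedAddCommGroup E] [InnerProductSpace ℝ E] [FiniteDimensional ℝ E]
  [MeasurableSpace E] [BorelSpace E]

/-- **`UC` from the windows and block INST** (the form of helper933's `INST.good_of_stmts`) -/
theorem uc_of_ev {m : ℕ} (hm : 1 ≤ m)
    (hW : ∀ Q, 1 ≤ Q → WindowsStmt E m (Module.finrank ℝ E - m) Q)
    (hI : ∀ Q, 1 ≤ Q → INST.Ev E m (Module.finrank ℝ E - m) Q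
      fun _ _ _ _ _ _ _ _ _ _ _ => ∃ Y : ABS.Chain, Y.Good) : UC E m := by
  intro U V x hU hst hx
  obtain ⟨X, hX, C, C₅, hC, hC₅, hwin⟩ := hW (V.mult x) hx.mult
  obtain ⟨ε, hε, hinst⟩ := hI (V.mult x) hx.mult X C C₅
  obtain ⟨τ, hτ, hτε, hwin⟩ := hwin ε hε
  obtain ⟨r₁, hr₁, hUr, K, δ, hloc⟩ := (WSEQ.exists_loc hU hst hx hτ).exists
  obtain ⟨F⟩ := exists_frame (n := Module.finrank ℝ E - m) hx.tan.1 rfl
  by_cases hg : ∃ ρ > 0, ∃ w : E → E, ALL.OnGraph (V.tangent x)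
      (dilM m 0 ((3 / 8) / r₁) (SUB.cylMeas V x r₁)) ρ w
  · obtain ⟨ρ, hρ, w, hw⟩ := hg
    exact ALL.uc_of_dil hr₁ hUr hx (div_pos (by norm_num) hr₁) hρ hw
  · rcases hwin _ F _ _ K δ hloc with h | ⟨⟨S⟩⟩
    · exact absurd h hg
    · obtain ⟨Y, hY⟩ := hinst _ F _ _ K δ ε τ S
        ⟨hm, hx.mult, hX, hloc, hC, hC₅, hε, hτ, hτε, fun ρ hρ w hw => hg ⟨ρ, hρ, w, hw⟩⟩ le_rfl
      exact (hY.false).elim

/-- the same, with all the boxes of block INST -/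
theorem uc_of_stmts {m : ℕ} (hm : 1 ≤ m) {k K : ℝ → ℝ}
    (hW : ∀ Q, 1 ≤ Q → WindowsStmt E m (Module.finrank ℝ E - m) Q)
    (hfat : ∀ Q, 1 ≤ Q → INST.FatStmt E m (Module.finrank ℝ E - m) Q)
    (hode : ∀ Q, 1 ≤ Q → ∃ κ : ℝ, 0 ≤ κ ∧ INST.OdeStmt E m (Module.finrank ℝ E - m) Q k K κ)
    (hdec : ∀ Q, 1 ≤ Q → INST.DecayStmt E m (Module.finrank ℝ E - m) Q k K)
    (hlim : ∀ Q, 1 ≤ Q → INST.LimStmt E m (Module.finrank ℝ E - m) Q k K)
    (hsoft : ∀ Q, 1 ≤ Q → INST.SoftStmt E m (Module.finrank ℝ E - m) Q k K)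
    (hsw : ∀ Q, 1 ≤ Q → INST.SwitchStmt E m (Module.finrank ℝ E - m) Q k K) : UC E m := by
  refine uc_of_ev hm hW fun Q hQ => ?_
  obtain ⟨κ, hκ, ho⟩ := hode Q hQ
  exact INST.good_of_stmts hκ (hfat Q hQ) ho (hdec Q hQ) (hlim Q hQ) (hsoft Q hQ) (hsw Q hQ)

end Vale.Agent.P214.UCA
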