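import Vale.Agent.P214.ALL.Fin
import Vale.Agent.P214.WSEQ.Props
import Vale.Agent.P214.LOCF.Props
import Vale.Agent.P214.ABS.Main
import Vale.Agent.P214.Skel.Top

/-!
# P214, block UCA: the final chain

`UC E m` from the blocks [LOC adapter], [WINDOWS], [INST], [RATE], [LOCF] and `ABS.Chain.Good.false`.
-/

open Set Filter Topology MeasureTheory Metric
open scoped RealInnerProductSpace ENNReal ContDiff

set_option linter.all false

namespace Vale.Agent.P214.UCA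

open Skel SCALE WIN

section defs

variable (E : Type*) [NormedAddCommGroup E] [InnerProductSpace ℝ E] [FiniteDimensional ℝ E]
  [MeasurableSpace E] [BorelSpace E]

/-- **[adapter]** (helper342): at a good point the blown-up measures satisfy `WSEQ.Loc` -/
def LocStmt (m : ℕ) : Prop :=
  ∀ (U : Set E) (V : IntegralVarifold m U) (x : E), IsOpen U → V.IsStationary → GoodPt V x →
    ∀ τ : ℝ, 0 < τ → ∃ r₁ : ℝ, 0 < r₁ ∧ closedBall x (2 * r₁) ⊆ U ∧ ∃ (K : Set E) (δ : ℝ → ℝ),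
      WSEQ.Loc m (V.mult x) (V.tangent x) (dilM m 0 (3 / 8 / r₁) (SUB.cylMeas V x r₁))
        (dilP 0 (3 / 8 / r₁) (SUB.trP V x)) K δ τ

/-- **[INST]** (helper856, 933, 617): the windows sequence gives an abstract chain -/
def ChainStmt (m n Q : ℕ) : Prop :=
  ∀ (X : WSEQ.Exps) (C C₅ : ℝ), X.OK m → 1 ≤ C → 0 ≤ C₅ → ∃ ε : ℝ, 0 < ε ∧
    ∀ (T : Submodule ℝ E) (F : Frame m n T) (ν : Measure E) (P : E → E →L[ℝ] E) (K : Set E)
      (δ : ℝ → ℝ) (τ : ℝ), τ ≤ ε → WSEQ.Loc m Q T ν P K δ τ →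
      Nonempty (WSEQ.WSeq m n Q T F ν P K δ X C C₅ ε) → ∃ Y : ABS.Chain, Y.Good

/-- from the local situation to a graph or an abstract chain -/
def InstStmt (m n Q : ℕ) : Prop :=
  ∃ τ : ℝ, 0 < τ ∧ ∀ (T : Submodule ℝ E) (F : Frame m n T) (ν : Measure E)
    (P : E → E →L[ℝ] E) (K : Set E) (δ : ℝ → ℝ), WSEQ.Loc m Q T ν P K δ τ →
      (∃ ρ > 0, ∃ w : E → E, ALL.OnGraph T ν ρ w) ∨ ∃ Y : ABS.Chain, Y.Good

end defs

variable {E : Type*} [NormedAddCommGroup E] [InnerProductSpace ℝ E] [FiniteDimensional ℝ E]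
  [MeasurableSpace E] [BorelSpace E] {m n Q : ℕ}

theorem inst_of_windows (hW : WSEQ.WindowsStmt E m n Q) (hC : ChainStmt E m n Q) :
    InstStmt E m n Q := by
  obtain ⟨X, hX, C, C₅, hC1, hC5, hW⟩ := hW
  obtain ⟨ε, hε, hC⟩ := hC X C C₅ hX hC1 hC5
  obtain ⟨τ, hτ, hτε, hW⟩ := hW ε hε
  refine ⟨τ, hτ, fun T F ν P K δ hL => ?_⟩
  rcases hW T F ν P K δ hL with h | h
  · exact Or.inl h
  · exact Or.inr (hC T F ν P K δ τ hτε hL h)

/-- **`UC` from the local situation and the chain** -/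
theorem uc_of_inst (hL : LocStmt E m)
    (hI : ∀ Q, 1 ≤ Q → InstStmt E m (Module.finrank ℝ E - m) Q) : UC E m := by
  intro U V x hU hst hx
  obtain ⟨τ, hτ, hI⟩ := hI (V.mult x) hx.mult
  obtain ⟨r₁, hr₁, hUr, K, δ, hLoc⟩ := hL U V x hU hst hx τ hτ
  obtain ⟨F⟩ := WIN.exists_frame (n := Module.finrank ℝ E - m) hx.tan.1 rfl
  rcases hI _ F _ _ K δ hLoc with ⟨ρ, hρ, w, hw⟩ | ⟨Y, hY⟩
  · exact ALL.uc_of_dil hr₁ hUr hx (div_pos (by norm_num) hr₁) hρ hw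
  · exact (hY.false).elim

end Vale.Agent.P214.UCA
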