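import Vale.Agent.P214.SUB.B

set_option linter.all false

/-! Block UCA, part 1: if the measure of a good point lives, over a small base ball, on the graph of
a smooth function, then the support of the varifold lies near the point in a smooth submanifold. -/

open Set Filter Topology MeasureTheory Metric
open scoped RealInnerProductSpace ENNReal NNReal ContDiff

namespace Vale.Agent.P214

variable {E : Type*} [NormedAddCommGroup E] [InnerProductSpace ℝ E] [FiniteDimensional ℝ E]
  [MeasurableSpace E] [BorelSpace E]
variable {m : ℕ} {U : Set E} {V : IntegralVarifold m U} {x : E}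

namespace UCA

/-- the open cylinder over `ball 0 r`, translated by `x` -/
def cylAt (T : Submodule ℝ E) (x : E) (r : ℝ) : Set E := {y | T.starProjection (y - x) ∈ ball 0 r}

/-- the graph of `w` over `ball 0 r`, translated by `x` -/
def graphAt (T : Submodule ℝ E) (x : E) (r : ℝ) (w : E → E) : Set E :=
  {y | T.starProjection (y - x) ∈ ball 0 r ∧ FV.co T (y - x) = FV.co T (w (T.starProjection (y - x)))}

lemma isOpen_cylAt (T : Submodule ℝ E) (x : E) (r : ℝ) : IsOpen (cylAt T x r) :=
  isOpen_ball.preimage (T.starProjection.continuous.comp (continuous_id.sub continuous_const))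

lemma star_co (T : Submodule ℝ E) (y : E) : T.starProjection (FV.co T y) = 0 := by
  rw [FV.co_apply, map_sub]
  have : T.starProjection (T.starProjection y) = T.starProjection y :=
    Submodule.starProjection_eq_self_iff.2 (Submodule.starProjection_apply_mem T y)
  rw [this, sub_self]

lemma star_add_co (T : Submodule ℝ E) (y : E) : T.starProjection y + FV.co T y = y := by
  rw [FV.co_apply]; abel

/-- the straightening map of a graph -/
noncomputable def straight (T : Submodule ℝ E) (x : E) (r : ℝ) (w : E → E)
    (hw : ContDiffOn ℝ ∞ w (ball 0 r)) : OpenPartialHomeomorph E E where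
  toFun y := y - x - FV.co T (w (T.starProjection (y - x)))
  invFun z := z + x + FV.co T (w (T.starProjection z))
  source := cylAt T x r
  target := {z | T.starProjection z ∈ ball 0 r}
  map_source' := by
    intro y hy
    simp only [mem_setOf_eq, cylAt] at hy ⊢
    rw [map_sub T.starProjection (y - x), star_co, sub_zero]
    exact hy
  map_target' := by
    intro z hz
    simp only [mem_setOf_eq, cylAt] at hz ⊢
    have h : z + x + FV.co T (w (T.starProjection z)) - x = z + FV.co T (w (T.starProjection z)) := by
      abel
    rw [h, map_add, star_co, add_zero]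
    exact hz
  left_inv' := by
    intro y hy
    have h : T.starProjection (y - x - FV.co T (w (T.starProjection (y - x))))
        = T.starProjection (y - x) := by
      rw [map_sub T.starProjection (y - x), star_co, sub_zero]
    simp only [h]
    abel
  right_inv' := by
    intro z hz
    have h : z + x + FV.co T (w (T.starProjection z)) - x = z + FV.co T (w (T.starProjection z)) := by
      abel
    have h2 : T.starProjection (z + x + FV.co T (w (T.starProjection z)) - x)
        = T.starProjection z := by
      rw [h, map_add, star_co, add_zero]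
    simp only [h2]
    abel
  open_source := isOpen_cylAt T x r
  open_target := isOpen_ball.preimage T.starProjection.continuous
  continuousOn_toFun := by
    have h1 : ContinuousOn (fun y => T.starProjection (y - x)) (cylAt T x r) :=
      (T.starProjection.continuous.comp (continuous_id.sub continuous_const)).continuousOn
    have h2 : ContinuousOn (fun y => w (T.starProjection (y - x))) (cylAt T x r) :=
      hw.continuousOn.comp h1 (fun y hy => hy)
    exact (continuousOn_id.sub continuousOn_const).sub ((FV.co T).continuous.comp_continuousOn h2)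
  continuousOn_invFun := by
    have h1 : ContinuousOn (fun y => T.starProjection y) {z | T.starProjection z ∈ ball 0 r} :=
      T.starProjection.continuous.continuousOn
    have h2 : ContinuousOn (fun y => w (T.starProjection y)) {z | T.starProjection z ∈ ball 0 r} :=
      hw.continuousOn.comp h1 (fun y hy => hy)
    exact (continuousOn_id.add continuousOn_const).add ((FV.co T).continuous.comp_continuousOn h2)

/-- **a smooth graph is a smooth submanifold** -/
theorem isSmoothSubmanifold_graphAt {T : Submodule ℝ E} (hT : Module.finrank ℝ T = m) (x : E)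
    (r : ℝ) {w : E → E} (hw : ContDiffOn ℝ ∞ w (ball 0 r)) :
    IsSmoothSubmanifold m (graphAt T x r w) := by
  intro p hp
  refine ⟨straight T x r w hw, hp.1, ?_, ?_, T, hT, ?_⟩
  · have h1 : ContDiffOn ℝ ∞ (fun y => T.starProjection (y - x)) (cylAt T x r) :=
      (T.starProjection.contDiff.comp (contDiff_id.sub contDiff_const)).contDiffOn
    have h2 : ContDiffOn ℝ ∞ (fun y => w (T.starProjection (y - x))) (cylAt T x r) :=
      hw.comp h1 (fun y hy => hy)
    exact (contDiffOn_id.sub contDiffOn_const).sub ((FV.co T).contDiff.comp_contDiffOn h2)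
  · have h1 : ContDiffOn ℝ ∞ (fun y => T.starProjection y) {z | T.starProjection z ∈ ball 0 r} :=
      T.starProjection.contDiff.contDiffOn
    have h2 : ContDiffOn ℝ ∞ (fun y => w (T.starProjection y)) {z | T.starProjection z ∈ ball 0 r} :=
      hw.comp h1 (fun y hy => hy)
    exact (contDiffOn_id.add contDiffOn_const).add ((FV.co T).contDiff.comp_contDiffOn h2)
  · ext z
    constructor
    · rintro ⟨y, ⟨⟨hy1, hy2⟩, hy3⟩, rfl⟩
      refine ⟨?_, (straight T x r w hw).map_source hy3⟩
      show y - x - FV.co T (w (T.starProjection (y - x))) ∈ (T : Set E)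
      rw [← hy2, FV.co_apply]
      have : y - x - (y - x - T.starProjection (y - x)) = T.starProjection (y - x) := by abel
      rw [this]
      exact Submodule.starProjection_apply_mem T _
    · rintro ⟨hz1, hz2⟩
      refine ⟨(straight T x r w hw).symm z, ⟨⟨?_, ?_⟩, (straight T x r w hw).map_target hz2⟩,
        (straight T x r w hw).right_inv hz2⟩
      · exact (straight T x r w hw).map_target hz2
      · show FV.co T (z + x + FV.co T (w (T.starProjection z)) - x)
          = FV.co T (w (T.starProjection (z + x + FV.co T (w (T.starProjection z)) - x)))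
        have h : z + x + FV.co T (w (T.starProjection z)) - x
            = z + FV.co T (w (T.starProjection z)) := by abel
        have hz : T.starProjection z = z := Submodule.starProjection_eq_self_iff.2 hz1
        have hcz : FV.co T z = 0 := by rw [FV.co_apply, hz, sub_self]
        have hcc : ∀ v, FV.co T (FV.co T v) = FV.co T v := by
          intro v
          rw [FV.co_apply T (FV.co T v), star_co, sub_zero]
        rw [h, map_add T.starProjection, star_co, add_zero, map_add, hcz, hcc, zero_add]

/-- almost every point on the graph: the support lies in the graph -/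
theorem spt_subset_graphAt {r r₁ : ℝ} {w : E → E} (hr : 0 < r) (hrr : r ≤ r₁)
    (hU' : closedBall x (2 * r₁) ⊆ U) (hw : ContinuousOn w (ball 0 r))
    (hae : ∀ᵐ y ∂(SUB.cylMeas V x r₁), (V.tangent x).starProjection y ∈ ball (0:E) r →
      FV.co (V.tangent x) y = FV.co (V.tangent x) (w ((V.tangent x).starProjection y))) :
    ∃ W : Set E, IsOpen W ∧ x ∈ W ∧ W ⊆ U ∧ V.spt ∩ W ⊆ graphAt (V.tangent x) x r w := by
  set T := V.tangent x with hT
  have hr₁ : 0 < r₁ := hr.trans_le hrr
  set W : Set E := {y | T.starProjection (y - x) ∈ ball 0 r ∧ ‖FV.co T (y - x)‖ < r₁} with hWdef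
  have hWo : IsOpen W := by
    refine (isOpen_cylAt T x r).inter ?_
    exact isOpen_lt (((FV.co T).continuous.comp (continuous_id.sub continuous_const)).norm)
      continuous_const
  have hWreg : ∀ y ∈ W, y - x ∈ SUB.reg T r₁ := by
    intro y hy
    rw [SUB.mem_reg]
    refine ⟨?_, hy.2.le⟩
    have := hy.1
    rw [mem_ball_zero_iff] at this
    exact this.trans_le hrr
  refine ⟨W, hWo, ?_, ?_, ?_⟩
  · refine ⟨?_, ?_⟩
    · simp [hr]
    · simp [hr₁]
  · intro y hy
    apply hU'
    have h1 := SUB.reg_subset T hr₁ (hWreg y hy)
    rw [mem_ball_zero_iff] at h1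
    rw [mem_closedBall, dist_eq_norm]
    exact h1.le
  · rintro y ⟨hys, hyW⟩
    refine ⟨hyW.1, ?_⟩
    by_contra hne
    -- an open neighbourhood of `y` in `W` missing the graph
    have hcont : ContinuousOn (fun z => FV.co T (z - x) - FV.co T (w (T.starProjection (z - x))))
        (cylAt T x r) := by
      have h1 : ContinuousOn (fun y => T.starProjection (y - x)) (cylAt T x r) :=
        (T.starProjection.continuous.comp (continuous_id.sub continuous_const)).continuousOn
      have h2 : ContinuousOn (fun y => w (T.starProjection (y - x))) (cylAt T x r) :=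
        hw.comp h1 (fun y hy => hy)
      exact (((FV.co T).continuous.comp (continuous_id.sub continuous_const)).continuousOn).sub
        ((FV.co T).continuous.comp_continuousOn h2)
    have hopen : IsOpen (cylAt T x r ∩
        (fun z => FV.co T (z - x) - FV.co T (w (T.starProjection (z - x)))) ⁻¹' {0}ᶜ) :=
      hcont.isOpen_inter_preimage (isOpen_cylAt T x r) isOpen_compl_singleton
    set W' := W ∩ (cylAt T x r ∩
        (fun z => FV.co T (z - x) - FV.co T (w (T.starProjection (z - x)))) ⁻¹' {0}ᶜ) with hW'
    have hW'o : IsOpen W' := hWo.inter hopen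
    have hyW' : y ∈ W' := ⟨hyW, hyW.1, by
      simp only [mem_preimage, mem_compl_iff, mem_singleton_iff, sub_eq_zero]
      exact hne⟩
    have hpos := hys.2 W' (hW'o.mem_nhds hyW')
    have hzero : V.weight W' = 0 := by
      have h1 : SUB.cylMeas V x r₁ ((fun z => z - x) '' W') = 0 := by
        refine measure_mono_null ?_ (ae_iff.1 hae)
        rintro z ⟨z', hz', rfl⟩
        intro hcontra
        have h3 := hcontra hz'.1.1
        exact hz'.2.2 (by simp only [mem_singleton_iff, sub_eq_zero]; exact h3)
      have hmeas : MeasurableSet ((fun z : E => z - x) '' W') :=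
        (SUB.emb x).measurableSet_image.2 hW'o.measurableSet
      unfold SUB.cylMeas at h1
      rw [Measure.restrict_apply hmeas, inter_eq_left.2, (SUB.emb x).map_apply,
        preimage_image_eq _ (SUB.emb x).injective] at h1
      · exact h1
      · rintro z ⟨z', hz', rfl⟩
        exact hWreg z' hz'.1
    exact hpos.ne' hzero

/-- **conclusion of `UC` from a graph** -/
theorem of_graph_ae (hx : Skel.GoodPt V x) {r r₁ : ℝ} {w : E → E} (hr : 0 < r) (hrr : r ≤ r₁)
    (hU' : closedBall x (2 * r₁) ⊆ U) (hw : ContDiffOn ℝ ∞ w (ball 0 r))
    (hae : ∀ᵐ y ∂(SUB.cylMeas V x r₁), (V.tangent x).starProjection y ∈ ball (0:E) r →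
      FV.co (V.tangent x) y = FV.co (V.tangent x) (w ((V.tangent x).starProjection y))) :
    ∃ W S : Set E, IsOpen W ∧ x ∈ W ∧ W ⊆ U ∧ IsSmoothSubmanifold m S ∧ V.spt ∩ W ⊆ S := by
  obtain ⟨W, h1, h2, h3, h4⟩ := spt_subset_graphAt (V := V) hr hrr hU' hw.continuousOn hae
  exact ⟨W, _, h1, h2, h3, isSmoothSubmanifold_graphAt hx.tan.1 x r hw, h4⟩

/-- the same, with the support of the measure -/
theorem of_graph (hx : Skel.GoodPt V x) {r r₁ : ℝ} {w : E → E} (hr : 0 < r) (hrr : r ≤ r₁)
    (hU' : closedBall x (2 * r₁) ⊆ U) (hw : ContDiffOn ℝ ∞ w (ball 0 r))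
    (hsup : ∀ y ∈ (SUB.cylMeas V x r₁).support, (V.tangent x).starProjection y ∈ ball (0:E) r →
      FV.co (V.tangent x) y = FV.co (V.tangent x) (w ((V.tangent x).starProjection y))) :
    ∃ W S : Set E, IsOpen W ∧ x ∈ W ∧ W ⊆ U ∧ IsSmoothSubmanifold m S ∧ V.spt ∩ W ⊆ S := by
  refine of_graph_ae hx hr hrr hU' hw ?_
  have h : ∀ᵐ y ∂(SUB.cylMeas V x r₁), y ∈ (SUB.cylMeas V x r₁).support :=
    Measure.support_mem_ae
  filter_upwards [h] with y hy using hsup y hy

end UCA

end Vale.Agent.P214
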