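import Vale.Agent.P214.INST.Main
import Vale.Agent.P214.INST.SwD
import Vale.Agent.P214.INST.JumpMain

/-!
# P214, block UCA: everything except `SwitchStmt`
-/

open Set Filter Topology MeasureTheory Metric
open scoped RealInnerProductSpace ENNReal ContDiff

set_option linter.all false

namespace Vale.Agent.P214.UCA

open INST

variable (E : Type*) [NormedAddCommGroup E] [InnerProductSpace ℝ E] [FiniteDimensional ℝ E]
  [MeasurableSpace E] [BorelSpace E]

theorem refs (m n Q : ℕ) : RefsStmt E m n Q := refsStmt (tanStmt E m n Q)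

theorem cyl (m n Q : ℕ) : CylStmt E m n Q := cylStmt (refs E m n Q)

theorem soft (m n Q : ℕ) : SoftStmt E m n Q ODEW.k3 ODEW.K3 :=
  softStmt E m n Q ker3 (refs E m n Q) (cyl E m n Q)

theorem low (m n Q : ℕ) : LowStmt E m n Q ODEW.k3 ODEW.K3 :=
  lowStmt_of_swDat (by positivity) (swDat ker3 (refs E m n Q) (cyl E m n Q) (soft E m n Q))

theorem jump (m n Q : ℕ) : JumpStmt E m n Q ODEW.k3 ODEW.K3 :=
  jumpStmt E m n Q ker3 (refs E m n Q) (cyl E m n Q)

end Vale.Agent.P214.UCA
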