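import Vale.Agent.P214.R2.Final
import Vale.Agent.P214.CLS.ColMain

/-!
# P214, block UCA: the flat rate lemma in dimension two, unconditionally
-/

namespace Vale.Agent.P214.UCA

open Vale.Agent.P214

/-- **The flat rate lemma in dimension two.** -/
theorem rateFlat_two (E : Type*) [NormedAddCommGroup E] [InnerProductSpace ℝ E]
    [FiniteDimensional ℝ E] [MeasurableSpace E] [BorelSpace E] :
    ∀ Q, 1 ≤ Q → Skel.RateFlat E 2 Q :=
  R2.rateFlat_two_of_col (CLS.colStmt E (by norm_num))

end Vale.Agent.P214.UCA
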