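import Vale.Agent.P214.WIN.StepFin
import Vale.Agent.P214.STR.Main
import Vale.Agent.P214.ALL.Fin

/-!
# P214, block UCA: STEP at every radius, and Allard's theorem for one sheet, unconditionally
-/

open Set Filter Topology MeasureTheory Metric
open scoped RealInnerProductSpace ENNReal ContDiff

set_option linter.all false

namespace Vale.Agent.P214.UCA

open Skel

variable (E : Type*) [NormedAddCommGroup E] [InnerProductSpace ℝ E] [FiniteDimensional ℝ E]
  [MeasurableSpace E] [BorelSpace E]

/-- **STEP at every radius** -/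
theorem stepR {m : ℕ} (n : ℕ) {Q : ℕ} (hm : 1 ≤ m) (hQ : 1 ≤ Q) : STR.StepRStmt E m n Q :=
  STR.stepR (WIN.step_all E n hm hQ)

variable {E}

/-- **the conclusion of `UC` at points of multiplicity one** -/
theorem uc_mult_one {m : ℕ} (hm : 1 ≤ m) {U : Set E}
    {V : IntegralVarifold m U} (hU : IsOpen U) (hst : V.IsStationary) {x : E} (hx : GoodPt V x)
    (h1 : V.mult x = 1) :
    ∃ W S : Set E, IsOpen W ∧ x ∈ W ∧ W ⊆ U ∧ IsSmoothSubmanifold m S ∧ V.spt ∩ W ⊆ S :=
  ALL.uc_mult_one_of_step (WIN.stepOne_all E _ hm) hU hst hx h1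

end Vale.Agent.P214.UCA
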